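import Vale.Agent.P082.Full.Main
import Vale.Agent.P082.Lit.Bridge

/-!
P082: every bounded Hochschild cohomology group of a type II_1 von Neumann algebra in itself
vanishes.
-/

universe u

theorem Vale.Agent.Results.P082.TypeTwoOneVanishing.result : VP082.Lit.Target.{u} := by
  intro H _ _ _ M hM n
  exact (VP082.Lit.vanishes_iff n).2 (Vale.Agent.P082.Full.vanishes hM n)
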